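import Mathlib

/-!
# Row 286 (S0533), LL sec. 08 (statistics), package L10, statement S4: ADJACENT INTERVALS      (helper188; prefix `st_adj_`)      LL 08 l.138-154

Pure real analysis, Mathlib only.
* `stPol c t = ∑ j, c j * t ^ j`      the polynomial function with coefficient vector `c : Fin n → ℝ`
* `st_adj_low`      `m ‖c‖ ≤ ∫_α^β |P_c|`, uniformly in the subintervals `[α, β] ⊆ [0, A]` of length `≥ δ` (compactness of the coefficient sphere)
* `st_adj_equiv`    `sup_[0,A] |P_c| ≤ C avg_[α,β] |P_c|`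
* `st_adj_main`     **S4**: `G ≥ 0` of class `C^n` on `[al, be]`, `|G^(n)| ≤ M`; `J, J'` subintervals with lengths in `[l/κ, κ l]` at distance `≤ κ l`: `sup_J G ≤ C (avg_J' G + M l^n)`
-/

set_option autoImplicit false

namespace Claimed.Agent.R286

open MeasureTheory Set

/-- the polynomial function with coefficient vector `c` -/
def stPol {n : ℕ} (c : Fin n → ℝ) (t : ℝ) : ℝ := ∑ j, c j * t ^ (j : ℕ)

theorem st_adj_eqns_cite : True := by
  have := @stPol.eq_1
  trivial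

theorem st_adj_pol_cont (n : ℕ) : Continuous (fun p : (Fin n → ℝ) × ℝ => stPol p.1 p.2) := by
  unfold stPol
  fun_prop

theorem st_adj_pol_cont1 {n : ℕ} (c : Fin n → ℝ) : Continuous (stPol c) := by
  unfold stPol
  fun_prop

theorem st_adj_pol_smul {n : ℕ} (r : ℝ) (c : Fin n → ℝ) (t : ℝ) : stPol (r • c) t = r * stPol c t := by
  unfold stPol
  rw [Finset.mul_sum]
  exact Finset.sum_congr rfl fun j _ => by simp [mul_assoc]

/-- a polynomial function that vanishes on an interval has zero coefficients -/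
theorem st_adj_pol_zero {n : ℕ} (c : Fin n → ℝ) (α β : ℝ) (h : α < β) (h0 : ∀ t ∈ Ioo α β, stPol c t = 0) : c = 0 := by
  classical
  obtain ⟨p, hp⟩ : ∃ p : Polynomial ℝ, p = ∑ j : Fin n, Polynomial.C (c j) * Polynomial.X ^ (j : ℕ) := ⟨_, rfl⟩
  have he : ∀ t, p.eval t = stPol c t := by
    intro t
    simp [hp, stPol, Polynomial.eval_finsetSum]
  have hz : p = 0 := by
    apply Polynomial.eq_zero_of_infinite_isRoot
    apply (Ioo_infinite h).mono
    intro t ht
    show p.IsRoot t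
    rw [Polynomial.IsRoot.def, he, h0 t ht]
  funext j
  have h1 : p.coeff (j : ℕ) = c j := by
    rw [hp, Polynomial.finsetSum_coeff]
    rw [Finset.sum_eq_single j]
    · simp
    · intro i _ hij
      rw [Polynomial.coeff_C_mul, Polynomial.coeff_X_pow, if_neg, mul_zero]
      intro hc
      exact hij (Fin.ext hc.symm)
    · intro hj
      exact absurd (Finset.mem_univ j) hj
  rw [← h1, hz]
  simp

theorem st_adj_int_pos {n : ℕ} (c : Fin n → ℝ) (hc : c ≠ 0) (α β : ℝ) (h : α < β) : 0 < ∫ t in α..β, |stPol c t| := by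
  have hcont : Continuous fun t => |stPol c t| := (st_adj_pol_cont1 c).abs
  have hnn : 0 ≤ ∫ t in α..β, |stPol c t| := intervalIntegral.integral_nonneg h.le fun _ _ => abs_nonneg _
  rcases hnn.lt_or_eq with h1 | h1
  · exact h1
  exfalso
  rw [intervalIntegral.integral_of_le h.le] at h1
  have h2 := (setIntegral_eq_zero_iff_of_nonneg_ae (Filter.Eventually.of_forall fun _ => abs_nonneg _)
    (hcont.integrableOn_Ioc)).1 h1.symm
  have h3 : (fun t => |stPol c t|) =ᵐ[volume.restrict (Ioo α β)] fun _ => (0 : ℝ) :=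
    ae_restrict_of_ae_restrict_of_subset Ioo_subset_Ioc_self h2
  have h4 := Measure.eqOn_Ioo_of_ae_eq volume h3 hcont.continuousOn continuousOn_const
  exact hc (st_adj_pol_zero c α β h fun t ht => abs_eq_zero.1 (h4 ht))

/-- **lower bound**, uniform in the subinterval -/
theorem st_adj_low (n : ℕ) (A δ : ℝ) (hδ : 0 < δ) : ∃ m : ℝ, 0 < m ∧ ∀ (c : Fin n → ℝ) (α β : ℝ), 0 ≤ α → β ≤ A → α + δ ≤ β →
    m * ‖c‖ ≤ ∫ t in α..β, |stPol c t| := by
  obtain ⟨K, hKd⟩ : ∃ K : Set ((Fin n → ℝ) × ℝ × ℝ), K = Metric.sphere 0 1 ×ˢ {q : ℝ × ℝ | 0 ≤ q.1 ∧ q.2 ≤ A ∧ q.1 + δ ≤ q.2} := ⟨_, rfl⟩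
  have hK : IsCompact K := by
    rw [hKd]
    apply (isCompact_sphere 0 1).prod
    apply (isCompact_Icc (a := ((0 : ℝ), (0 : ℝ))) (b := (A, A))).of_isClosed_subset
    · apply IsClosed.inter (isClosed_le continuous_const continuous_fst)
      exact IsClosed.inter (isClosed_le continuous_snd continuous_const) (isClosed_le (continuous_fst.add continuous_const) continuous_snd)
    · rintro ⟨q1, q2⟩ ⟨h1, h2, h3⟩
      simp only at h1 h2 h3
      exact ⟨⟨h1, by simp only; linarith⟩, ⟨by simp only; linarith, h2⟩⟩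
  obtain ⟨Φ, hΦd⟩ : ∃ Φ : (Fin n → ℝ) × ℝ × ℝ → ℝ, Φ = fun p => ∫ t in p.2.1..p.2.2, |stPol p.1 t| := ⟨_, rfl⟩
  have hΦ : Continuous Φ := by
    have h1 : ∀ s : (Fin n → ℝ) × ℝ × ℝ → ℝ, Continuous s → Continuous fun p : (Fin n → ℝ) × ℝ × ℝ => ∫ t in (0 : ℝ)..s p, |stPol p.1 t| := by
      intro s hs
      refine intervalIntegral.continuous_parametric_intervalIntegral_of_continuous (f := fun (p : (Fin n → ℝ) × ℝ × ℝ) t => |stPol p.1 t|) ?_ hs
      exact ((st_adj_pol_cont n).comp ((continuous_fst.comp continuous_fst).prodMk continuous_snd)).abs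
    have h2 : Φ = fun p => (∫ t in (0 : ℝ)..p.2.2, |stPol p.1 t|) - ∫ t in (0 : ℝ)..p.2.1, |stPol p.1 t| := by
      rw [hΦd]
      funext p
      exact (intervalIntegral.integral_interval_sub_left ((st_adj_pol_cont1 p.1).abs.intervalIntegrable _ _)
        ((st_adj_pol_cont1 p.1).abs.intervalIntegrable _ _)).symm
    rw [h2]
    exact (h1 _ (continuous_snd.comp continuous_snd)).sub (h1 _ (continuous_fst.comp continuous_snd))
  have hmem : ∀ (c : Fin n → ℝ) (α β : ℝ), c ≠ 0 → 0 ≤ α → β ≤ A → α + δ ≤ β → (‖c‖⁻¹ • c, α, β) ∈ K := by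
    intro c α β hc h1 h2 h3
    rw [hKd]
    refine ⟨?_, h1, h2, h3⟩
    rw [mem_sphere_zero_iff_norm, norm_smul, norm_inv, norm_norm]
    exact inv_mul_cancel₀ (norm_ne_zero_iff.2 hc)
  have hzero : ∀ (m : ℝ) (α β : ℝ), m * ‖(0 : Fin n → ℝ)‖ ≤ ∫ t in α..β, |stPol (0 : Fin n → ℝ) t| := by
    intro m α β
    simp [stPol]
  rcases K.eq_empty_or_nonempty with hE | hne
  · refine ⟨1, one_pos, fun c α β h1 h2 h3 => ?_⟩
    by_cases hc : c = 0
    · rw [hc]
      exact hzero 1 α β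
    · have := hmem c α β hc h1 h2 h3
      rw [hE] at this
      exact absurd this (notMem_empty _)
  · obtain ⟨p0, hp0, hmin⟩ := hK.exists_isMinOn hne hΦ.continuousOn
    have hpos : 0 < Φ p0 := by
      rw [hKd] at hp0
      obtain ⟨h1, -, -, h4⟩ := hp0
      rw [hΦd]
      apply st_adj_int_pos
      · intro h0
        rw [mem_sphere_zero_iff_norm, h0, norm_zero] at h1
        exact zero_ne_one h1
      · linarith
    refine ⟨Φ p0, hpos, fun c α β h1 h2 h3 => ?_⟩
    by_cases hc : c = 0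
    · rw [hc]
      exact hzero _ α β
    · have h5 : Φ p0 ≤ Φ (‖c‖⁻¹ • c, α, β) := hmin (hmem c α β hc h1 h2 h3)
      have hn : 0 < ‖c‖ := norm_pos_iff.2 hc
      have h6 : Φ (‖c‖⁻¹ • c, α, β) = ‖c‖⁻¹ * ∫ t in α..β, |stPol c t| := by
        rw [hΦd]
        simp only
        rw [← intervalIntegral.integral_const_mul]
        congr 1
        funext t
        rw [st_adj_pol_smul, abs_mul, abs_of_pos (inv_pos.2 hn)]
      rw [h6] at h5
      calc Φ p0 * ‖c‖ ≤ (‖c‖⁻¹ * ∫ t in α..β, |stPol c t|) * ‖c‖ := mul_le_mul_of_nonneg_right h5 hn.le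
        _ = ∫ t in α..β, |stPol c t| := by field_simp

/-- upper bound -/
theorem st_adj_up {n : ℕ} (c : Fin n → ℝ) (A t : ℝ) (h0 : 0 ≤ t) (h1 : t ≤ A) : |stPol c t| ≤ ‖c‖ * ∑ j : Fin n, A ^ (j : ℕ) := by
  unfold stPol
  rw [Finset.mul_sum]
  refine (Finset.abs_sum_le_sum_abs _ _).trans (Finset.sum_le_sum fun j _ => ?_)
  rw [abs_mul, abs_of_nonneg (pow_nonneg h0 _)]
  exact mul_le_mul (norm_le_pi_norm c j) (pow_le_pow_left₀ h0 h1 _) (pow_nonneg h0 _) (norm_nonneg _)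

/-- **equivalence of the sup norm on `[0, A]` and of the mean on a subinterval of length `≥ δ`** -/
theorem st_adj_equiv (n : ℕ) (A δ : ℝ) (hδ : 0 < δ) : ∃ C : ℝ, 0 < C ∧ ∀ (c : Fin n → ℝ) (α β : ℝ), 0 ≤ α → β ≤ A → α + δ ≤ β →
    ∀ t, 0 ≤ t → t ≤ A → |stPol c t| ≤ C * ((∫ s in α..β, |stPol c s|) / (β - α)) := by
  obtain ⟨m, hm, H⟩ := st_adj_low n A δ hδ
  refine ⟨((∑ j : Fin n, |A| ^ (j : ℕ)) + 1) * (|A| + 1) / m, by positivity, fun c α β h1 h2 h3 t ht0 ht1 => ?_⟩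
  have hA : 0 ≤ A := ht0.trans ht1
  rw [abs_of_nonneg hA]
  have hB : 0 ≤ ∑ j : Fin n, A ^ (j : ℕ) := Finset.sum_nonneg fun j _ => pow_nonneg hA _
  have hI := H c α β h1 h2 h3
  have hI0 : 0 ≤ ∫ s in α..β, |stPol c s| := intervalIntegral.integral_nonneg (by linarith) fun _ _ => abs_nonneg _
  have hd : 0 < β - α := by linarith
  have hd2 : β - α ≤ A + 1 := by linarith
  have h4 : ‖c‖ ≤ (∫ s in α..β, |stPol c s|) / m := by
    rw [le_div_iff₀ hm]
    linarith
  have h5 : (∫ s in α..β, |stPol c s|) ≤ (A + 1) * ((∫ s in α..β, |stPol c s|) / (β - α)) := by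
    have : (∫ s in α..β, |stPol c s|) = (β - α) * ((∫ s in α..β, |stPol c s|) / (β - α)) := by field_simp
    calc (∫ s in α..β, |stPol c s|) = (β - α) * ((∫ s in α..β, |stPol c s|) / (β - α)) := this
      _ ≤ (A + 1) * ((∫ s in α..β, |stPol c s|) / (β - α)) := mul_le_mul_of_nonneg_right hd2 (div_nonneg hI0 hd.le)
  calc |stPol c t| ≤ ‖c‖ * ∑ j : Fin n, A ^ (j : ℕ) := st_adj_up c A t ht0 ht1
    _ ≤ ((∫ s in α..β, |stPol c s|) / m) * ((∑ j : Fin n, A ^ (j : ℕ)) + 1) :=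
        mul_le_mul h4 (by linarith) hB (div_nonneg hI0 hm.le)
    _ ≤ (((A + 1) * ((∫ s in α..β, |stPol c s|) / (β - α))) / m) * ((∑ j : Fin n, A ^ (j : ℕ)) + 1) := by
        apply mul_le_mul_of_nonneg_right _ (by linarith)
        exact div_le_div_of_nonneg_right h5 hm.le
    _ = ((∑ j : Fin n, A ^ (j : ℕ)) + 1) * (A + 1) / m * ((∫ s in α..β, |stPol c s|) / (β - α)) := by ring

/-- **S4 (adjacent intervals).**      `G ≥ 0` of class `C^n` on `[al, be]` with `|G^(n)| ≤ M`; `J = [a, b]`, `J' = [a', b']` subintervals, lengths in `[l/κ, κ l]`, `|a - a'| ≤ κ l`. -/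
theorem st_adj_main (n : ℕ) (kap : ℝ) (hk : 1 ≤ kap) : ∃ C : ℝ, 0 < C ∧ ∀ (G : ℝ → ℝ) (al be M l : ℝ),
    ContDiffOn ℝ n G (Icc al be) → (∀ z ∈ Icc al be, 0 ≤ G z) → (∀ z ∈ Icc al be, |iteratedDerivWithin n G (Icc al be) z| ≤ M) →
    ∀ a b a' b' : ℝ, al ≤ a → a < b → b ≤ be → al ≤ a' → a' < b' → b' ≤ be → l / kap ≤ b - a → b - a ≤ kap * l → l / kap ≤ b' - a' → b' - a' ≤ kap * l →
      |a - a'| ≤ kap * l → ∀ z ∈ Icc a b, G z ≤ C * ((∫ t in a'..b', G t) / (b' - a') + M * l ^ n) := by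
  rcases n with _ | k
  · refine ⟨1, one_pos, ?_⟩
    intro G al be M l _ h0 hM a b a' b' h1 _ h3 h4 h5 h6 _ _ _ _ _ z hz
    have hz' : z ∈ Icc al be := ⟨h1.trans hz.1, hz.2.trans h3⟩
    have hm := hM z hz'
    rw [iteratedDerivWithin_zero] at hm
    have hI : 0 ≤ ∫ t in a'..b', G t := intervalIntegral.integral_nonneg h5.le fun t ht => h0 t ⟨h4.trans ht.1, ht.2.trans h6⟩
    have hI2 : 0 ≤ (∫ t in a'..b', G t) / (b' - a') := div_nonneg hI (by linarith)
    have := le_abs_self (G z)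
    rw [pow_zero, mul_one, one_mul]
    linarith
  have hk0 : 0 < kap := by linarith
  obtain ⟨C0, hC0, H⟩ := st_adj_equiv (k + 1) (2 * kap) (1 / kap) (by positivity)
  refine ⟨(C0 + 1) * (2 * kap) ^ (k + 1), by positivity, ?_⟩
  intro G al be M l hG h0 hM a b a' b' h1 h2 h3 h4 h5 h6 _ h8 h9 h10 h11 z hz
  have hl : 0 < l := by
    by_contra h
    have : kap * l ≤ 0 := mul_nonpos_of_nonneg_of_nonpos hk0.le (not_lt.1 h)
    linarith
  have hkl : 0 < kap * l := by positivity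
  obtain ⟨h11a, h11b⟩ := abs_le.1 h11
  obtain ⟨x₀, hx0⟩ : ∃ x₀ : ℝ, x₀ = min a a' := ⟨_, rfl⟩
  obtain ⟨d, hd⟩ : ∃ d : ℝ, d = max b b' := ⟨_, rfl⟩
  have e1 : x₀ ≤ a := hx0 ▸ min_le_left _ _
  have e2 : x₀ ≤ a' := hx0 ▸ min_le_right _ _
  have e3 : al ≤ x₀ := hx0 ▸ le_min h1 h4
  have e4 : b ≤ d := hd ▸ le_max_left _ _
  have e5 : b' ≤ d := hd ▸ le_max_right _ _
  have e6 : d ≤ be := hd ▸ max_le h3 h6
  have e7 : d - x₀ ≤ 2 * kap * l := by
    have a1 : d ≤ x₀ + 2 * kap * l := by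
      rw [hd]
      refine max_le ?_ ?_
      · have : b - 2 * kap * l ≤ x₀ := by
          rw [hx0]
          exact le_min (by linarith) (by linarith)
        linarith
      · have : b' - 2 * kap * l ≤ x₀ := by
          rw [hx0]
          exact le_min (by linarith) (by linarith)
        linarith
    linarith
  have hS : x₀ < d := by linarith
  have hsub : Icc x₀ d ⊆ Icc al be := Icc_subset_Icc e3 e6
  have hM0 : 0 ≤ M := (abs_nonneg _).trans (hM a ⟨h1, by linarith⟩)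
  have hder : ∀ y ∈ Icc x₀ d, iteratedDerivWithin (k + 1) G (Icc x₀ d) y = iteratedDerivWithin (k + 1) G (Icc al be) y := by
    intro y hy
    rw [iteratedDerivWithin_eq_iteratedFDerivWithin, iteratedDerivWithin_eq_iteratedFDerivWithin,
      iteratedFDerivWithin_subset hsub (uniqueDiffOn_Icc hS) (uniqueDiffOn_Icc (by linarith)) hG hy]
  obtain ⟨c, hc⟩ : ∃ c : Fin (k + 1) → ℝ, c = fun j : Fin (k + 1) => (((j : ℕ).factorial : ℝ))⁻¹ * iteratedDerivWithin (j : ℕ) G (Icc x₀ d) x₀ * l ^ (j : ℕ) := ⟨_, rfl⟩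
  have hT : ∀ x, taylorWithinEval G k (Icc x₀ d) x₀ x = stPol c (x / l - x₀ / l) := by
    intro x
    rw [taylor_within_apply, Finset.sum_range, stPol]
    refine Finset.sum_congr rfl fun j _ => ?_
    have e : x / l - x₀ / l = (x - x₀) / l := by ring
    rw [hc, smul_eq_mul, e, div_pow]
    field_simp
  obtain ⟨ρ, hρ⟩ : ∃ ρ : ℝ, ρ = M * (2 * kap * l) ^ (k + 1) := ⟨_, rfl⟩
  have hρ0 : 0 ≤ ρ := by rw [hρ]; positivity
  have hR : ∀ x ∈ Icc x₀ d, |G x - stPol c (x / l - x₀ / l)| ≤ ρ := by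
    intro x hx
    have ht := taylor_mean_remainder_bound (f := G) (n := k) (C := M) hS.le (by exact_mod_cast hG.mono hsub) hx
      (fun y hy => by rw [Real.norm_eq_abs, hder y hy]; exact hM y (hsub hy))
    rw [Real.norm_eq_abs, hT] at ht
    refine ht.trans ?_
    have f1 : (1 : ℝ) ≤ (k.factorial : ℝ) := by exact_mod_cast Nat.succ_le_of_lt k.factorial_pos
    have f2 : (x - x₀) ^ (k + 1) ≤ (2 * kap * l) ^ (k + 1) := pow_le_pow_left₀ (by linarith [hx.1]) (by linarith [hx.2]) _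
    have f3 : 0 ≤ (x - x₀) ^ (k + 1) := pow_nonneg (by linarith [hx.1]) _
    calc M * (x - x₀) ^ (k + 1) / (k.factorial : ℝ) ≤ M * (x - x₀) ^ (k + 1) := div_le_self (mul_nonneg hM0 f3) f1
      _ ≤ ρ := by rw [hρ]; exact mul_le_mul_of_nonneg_left f2 hM0
  -- the scaled interval
  obtain ⟨α, hα⟩ : ∃ α : ℝ, α = a' / l - x₀ / l := ⟨_, rfl⟩
  obtain ⟨β, hβ⟩ : ∃ β : ℝ, β = b' / l - x₀ / l := ⟨_, rfl⟩
  have g1 : 0 ≤ α := by
    rw [hα, ← sub_div]
    exact div_nonneg (by linarith) hl.le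
  have g2 : β ≤ 2 * kap := by
    rw [hβ, ← sub_div, div_le_iff₀ hl]
    linarith
  have g3 : β - α = (b' - a') / l := by rw [hα, hβ]; ring
  have g4 : α + 1 / kap ≤ β := by
    have : 1 / kap ≤ (b' - a') / l := by
      rw [le_div_iff₀ hl]
      calc 1 / kap * l = l / kap := by ring
        _ ≤ b' - a' := h9
    linarith
  have g5 : 0 ≤ z / l - x₀ / l := by
    rw [← sub_div]
    exact div_nonneg (by linarith [hz.1]) hl.le
  have g6 : z / l - x₀ / l ≤ 2 * kap := by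
    rw [← sub_div, div_le_iff₀ hl]
    linarith [hz.2]
  have key := H c α β g1 g2 g4 _ g5 g6
  have hcv : (∫ x in a'..b', |stPol c (x / l - x₀ / l)|) = l * ∫ t in α..β, |stPol c t| := by
    rw [hα, hβ]
    have := intervalIntegral.integral_comp_div_sub (a := a') (b := b') (fun t => |stPol c t|) hl.ne' (x₀ / l)
    rw [smul_eq_mul] at this
    exact this
  have hGc : ContinuousOn G (Icc a' b') := hG.continuousOn.mono (Icc_subset_Icc h4 h6)
  have hGi : IntervalIntegrable G volume a' b' := hGc.intervalIntegrable_of_Icc h5.le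
  have hPc : Continuous fun x : ℝ => |stPol c (x / l - x₀ / l)| :=
    ((st_adj_pol_cont1 c).comp ((continuous_id.div_const l).sub continuous_const)).abs
  have hint : (∫ x in a'..b', |stPol c (x / l - x₀ / l)|) ≤ (∫ x in a'..b', G x) + ρ * (b' - a') := by
    have i1 : (∫ x in a'..b', |stPol c (x / l - x₀ / l)|) ≤ ∫ x in a'..b', (G x + ρ) := by
      refine intervalIntegral.integral_mono_on h5.le (hPc.intervalIntegrable _ _) (hGi.add intervalIntegrable_const) fun x hx => ?_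
      have hx' : x ∈ Icc x₀ d := ⟨e2.trans hx.1, hx.2.trans e5⟩
      have r1 := hR x hx'
      have r2 := h0 x (hsub hx')
      rw [abs_le] at r1
      rw [abs_le]
      constructor <;> linarith [r1.1, r1.2]
    rw [intervalIntegral.integral_add hGi intervalIntegrable_const, intervalIntegral.integral_const, smul_eq_mul] at i1
    linarith
  have hba : 0 < b' - a' := by linarith
  have havg : (∫ s in α..β, |stPol c s|) / (β - α) ≤ (∫ x in a'..b', G x) / (b' - a') + ρ := by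
    have q1 : (∫ s in α..β, |stPol c s|) / (β - α) = (∫ x in a'..b', |stPol c (x / l - x₀ / l)|) / (b' - a') := by
      rw [hcv, g3]
      field_simp
    rw [q1, div_le_iff₀ hba]
    calc (∫ x in a'..b', |stPol c (x / l - x₀ / l)|) ≤ (∫ x in a'..b', G x) + ρ * (b' - a') := hint
      _ = ((∫ x in a'..b', G x) / (b' - a') + ρ) * (b' - a') := by field_simp
  have hz' : z ∈ Icc x₀ d := ⟨e1.trans hz.1, hz.2.trans e4⟩
  have hI : 0 ≤ ∫ t in a'..b', G t := intervalIntegral.integral_nonneg h5.le fun t ht => h0 t ⟨h4.trans ht.1, ht.2.trans h6⟩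
  have hI2 : 0 ≤ (∫ t in a'..b', G t) / (b' - a') := div_nonneg hI hba.le
  have hρ2 : ρ = (2 * kap) ^ (k + 1) * (M * l ^ (k + 1)) := by rw [hρ, mul_pow]; ring
  have hp1 : (1 : ℝ) ≤ (2 * kap) ^ (k + 1) := one_le_pow₀ (by linarith)
  have hMl : 0 ≤ M * l ^ (k + 1) := by positivity
  have r1 := abs_le.1 (hR z hz')
  have r3 := le_abs_self (stPol c (z / l - x₀ / l))
  calc G z ≤ |stPol c (z / l - x₀ / l)| + ρ := by linarith [r1.2]
    _ ≤ C0 * ((∫ x in a'..b', G x) / (b' - a') + ρ) + ρ := by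
        have := key.trans (mul_le_mul_of_nonneg_left havg hC0.le)
        linarith
    _ ≤ (C0 + 1) * ((∫ x in a'..b', G x) / (b' - a') + ρ) := by
        rw [add_mul, one_mul]
        linarith
    _ ≤ (C0 + 1) * ((2 * kap) ^ (k + 1) * ((∫ x in a'..b', G x) / (b' - a') + M * l ^ (k + 1))) := by
        apply mul_le_mul_of_nonneg_left _ (by linarith)
        rw [hρ2, mul_add]
        have := le_mul_of_one_le_left hI2 hp1
        linarith
    _ = (C0 + 1) * (2 * kap) ^ (k + 1) * ((∫ t in a'..b', G t) / (b' - a') + M * l ^ (k + 1)) := by ring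

end Claimed.Agent.R286
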